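import Vale.Agent.P011UB.Iw
import Mathlib.Algebra.Polynomial.Roots

/-!
Automorphisms which stabilise `U, V, T` permute the root subgroups.
-/

set_option autoImplicit false
set_option linter.all false

namespace Vale.Agent.P011UB

open Matrix Polynomial Vale.Agent.P183A Vale.Agent.P183CH Vale.Agent.P183CH.RG

variable {R : RS} {k : Type} [Field k] [Infinite k] {G : Type} [Group G] {Γ : RG R k G}

theorem zpow_eq {m : ℤ} (h : ∀ t : kˣ, t ^ m = 1) : m = 0 := by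
  by_contra c
  have h1 : (Polynomial.X * (Polynomial.X ^ m.natAbs - 1) : k[X]) = 0 := Polynomial.funext fun t => by
    by_cases e : t = 0
    · simp [e]
    · have := congrArg Units.val ((pow_natAbs_eq_one (a := Units.mk0 t e)).2 (h _))
      simp only [Units.val_pow_eq_pow_val, Units.val_mk0, Units.val_one] at this
      simp [this]
  have h2 := congrArg (eval 0) ((mul_eq_zero.1 h1).resolve_left X_ne_zero)
  simp [zero_pow (Int.natAbs_ne_zero.2 c)] at h2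

theorem zpow_inj {a b : ℤ} (h : ∀ t : kˣ, t ^ a = t ^ b) : a = b :=
  sub_eq_zero.1 (zpow_eq (k := k) fun t => by rw [zpow_sub, h, mul_inv_cancel])

theorem chi_inj (hΓ : Γ.Ok) (hR : R.Ok) {γ δ : R.Q} (h : ∀ s ∈ Γ.T, hΓ.chi γ s = hΓ.chi δ s) :
    γ = δ := hR.pr_inj (_root_.funext fun i => zpow_inj (k := k) fun t => by
  rw [← hΓ.chi_h hR, ← hΓ.chi_h hR, h _ (h_mem i t)])

theorem conj_P (hΓ : Γ.Ok) {s : G} (hs : s ∈ Γ.T) {l : List R.Q} (hl : ∀ γ ∈ l, γ ∈ R.Φ)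
    (c : R.Q → k) : s * Γ.P l c * s⁻¹ = Γ.P l fun γ => hΓ.chi γ s * c γ := by
  induction l with
  | nil => simp [P_nil]
  | cons γ l ih =>
    rw [P_cons, P_cons, ← hΓ.tx hs (hl γ List.mem_cons_self),
      ← ih fun δ hδ => hl δ (List.mem_cons_of_mem _ hδ)]
    group

variable {n : ℕ} {w : Fin n → Fin R.r → ℤ} {E : R.Q → ℕ → Matrix (Fin n) (Fin n) ℤ}
  {ρ : G →* Matrix (Fin n) (Fin n) k} (h : Γ.Mat ρ w E) (hΓ : Γ.Ok)
include h hΓ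

omit [Infinite k] in
theorem conj_entry {δ : R.Q} {a b : Fin n} (e : w a = w b + R.pr δ) {s : G} (hs : s ∈ Γ.T) (u : G) :
    ρ (s * u * s⁻¹) a b = hΓ.chi δ s * ρ u a b := by
  have hR := h.ok
  have key : ∀ i t u, ρ (Γ.h i t * u * (Γ.h i t)⁻¹) a b = hΓ.chi δ (Γ.h i t) * ρ u a b :=
    fun i t u => by
      rw [← map_inv, map_mul, map_mul, h.h_eq, h.h_eq, mul_diagonal, diagonal_mul, hΓ.chi_h hR, e,
        Pi.add_apply, zpow_add, _root_.inv_zpow, Units.val_mul, mul_right_comm, mul_right_comm _ _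
        ((t ^ w b i)⁻¹ : kˣ).1, Units.mul_inv, one_mul]
  induction hs using Subgroup.closure_induction'' generalizing u with
  | mem x hx =>
    obtain ⟨i, t, rfl⟩ := hx
    exact key i t u
  | inv_mem x hx =>
    obtain ⟨i, t, rfl⟩ := hx
    rw [← map_inv]
    exact key i _ u
  | one => rw [hΓ.chi_one hR]; simp
  | mul x y hx hy h1 h2 =>
    rw [show x * y * u * (x * y)⁻¹ = x * (y * u * y⁻¹) * x⁻¹ by group, h1, h2,
      hΓ.chi_mul hR δ hx hy, Units.val_mul, mul_assoc]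

omit [Infinite k] in
theorem P_entry {l : List R.Q} (l1 : l.Nodup) (l2 : ∀ γ ∈ l, γ ∈ R.Pos) {c : R.Q → k} {δ : R.Q}
    (hδ : δ ∈ l) (hm : ∀ γ ∈ l, c γ ≠ 0 → R.ht δ ≤ R.ht γ) {a b : Fin n}
    (e : w a = w b + R.pr δ) : ρ (Γ.P l c) a b = c δ * E δ 1 a b := by
  have hR := h.ok
  have h1 := (h.rf.prod_entry hR (hR.ht_pos (l2 δ hδ)) (l.map fun γ => (γ, c γ)) fun x hx => by
    obtain ⟨γ, hγ, rfl⟩ := List.mem_map.1 hx
    exact ⟨(l2 γ hγ).1, or_iff_not_imp_left.2 (hm γ hγ)⟩).2 a b e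
  have h2 := sum_ite_nodup (l.map fun γ => (γ, c γ))
    (by simpa [List.map_map, Function.comp_def] using l1) (δ, c δ) (List.mem_map_of_mem hδ)
  have h3 : a ≠ b := fun c => (hR.sign δ (l2 δ hδ).1).1 (hR.pr_inj (by
    rw [c, left_eq_add] at e
    exact e.trans (zero_vecMul _).symm))
  rw [h2, ← h.prod_eq _ fun x hx => by
    obtain ⟨γ, hγ, rfl⟩ := List.mem_map.1 hx
    exact (l2 γ hγ).1, Matrix.sub_apply, one_apply_ne h3, sub_zero, List.map_map] at h1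
  exact h1

/-- the image of a root subgroup -/
theorem root_curve (σ : G ≃* G) (hT : ∀ s, σ s ∈ Γ.T ↔ s ∈ Γ.T) {γ : R.Q} (hγ : γ ∈ R.Φ)
    (hU : ∀ t, σ (Γ.x γ t) ∈ Γ.U)
    (hY : ∃ Y : Matrix (Fin n) (Fin n) k[X], ∀ t, ρ (σ (Γ.x γ t)) = Y.map (eval t)) :
    ∃ δ ∈ R.Pos, ∃ m : ℕ, 0 < m ∧ ∃ c : kˣ, (∀ t, σ (Γ.x γ t) = Γ.x δ (c * t ^ m)) ∧
      ∀ s ∈ Γ.T, hΓ.chi δ (σ s) = hΓ.chi γ s ^ m := by
  have hR := h.ok
  obtain ⟨Y, hY⟩ := hY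
  obtain ⟨l, l1, l2⟩ := RS.exists_list (S := R.Pos) le_rfl
  have l3 : ∀ γ ∈ l, γ ∈ R.Pos := fun γ => (l2 γ).1
  have l4 : ∀ γ ∈ l, γ ∈ R.Φ := fun γ e => (l3 γ e).1
  choose c hc using fun t => hΓ.exists_P hR RS.cl_Pos l1 l2 (U_eq (Γ := Γ) ▸ hU t)
  have h1 : ∀ s ∈ Γ.T, ∀ t, σ s * σ (Γ.x γ t) * (σ s)⁻¹ = σ (Γ.x γ (hΓ.chi γ s * t)) :=
    fun s hs t => by rw [← hΓ.tx hs hγ, map_mul, map_mul, map_inv]
  obtain ⟨δ, ⟨hδ, c1⟩, hm⟩ := Set.exists_min_image {δ | δ ∈ l ∧ c 1 δ ≠ 0} R.ht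
    ((List.finite_toSet l).subset fun _ e => e.1) (by
      by_contra e
      have := (hc 1).trans (hΓ.P_zero l4 fun γ hγ => by_contra fun c => e ⟨γ, hγ, c⟩)
      exact one_ne_zero (hΓ.x_eq_one hR hγ (σ.map_eq_one_iff.1 this)))
  obtain ⟨a, b, hab⟩ := h.rf.exists_entry (l4 δ hδ) k
  have e := h.rf.deg δ (l4 δ hδ) a b fun c => hab (by rw [c, Int.cast_zero])
  have h2 : ∀ t, ρ (σ (Γ.x γ t)) a b = (Y a b).eval t := fun t => congrFun (congrFun (hY t) a) b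
  have h3 : Y a b ≠ 0 := fun e' => mul_ne_zero c1 hab (by
    rw [← P_entry h hΓ l1 l3 hδ (fun γ g1 g2 => hm γ ⟨g1, g2⟩) e, ← hc, h2, e', eval_zero])
  have h4 : ∀ s ∈ Γ.T, ∀ m, (Y a b).coeff m ≠ 0 → hΓ.chi δ (σ s) = hΓ.chi γ s ^ m :=
    fun s hs m e' => by
      have : C (hΓ.chi δ (σ s) : k) * Y a b = (Y a b).comp (C (hΓ.chi γ s : k) * Polynomial.X) :=
        Polynomial.funext fun t => by
          rw [eval_mul, eval_C, eval_comp, eval_mul, eval_C, eval_X, ← h2, ← h2, ← h1 s hs,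
            conj_entry h hΓ e ((hT s).2 hs)]
      have := congrArg (coeff · m) this
      simp only [coeff_C_mul, comp_C_mul_X_coeff] at this
      exact Units.ext (mul_right_cancel₀ e' (this.trans (by rw [mul_comm]; simp)))
  obtain ⟨m, hm'⟩ := Function.ne_iff.1 fun e' : (Y a b).coeff = fun _ => 0 =>
    h3 (Polynomial.ext (congrFun e'))
  have h5 : ∀ m', (Y a b).coeff m' ≠ 0 → m' = m := fun m' e' => by
    have := chi_inj hΓ hR (γ := (m' : ℤ) • γ) (δ := (m : ℤ) • γ) fun s hs => by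
      rw [hΓ.chi_smul, hΓ.chi_smul, zpow_natCast, zpow_natCast, ← h4 s hs m hm', ← h4 s hs m' e']
    exact_mod_cast smul_left_injective ℤ (hR.sign γ hγ).1 this
  have h6 : Y a b = monomial m ((Y a b).coeff m) := Polynomial.ext fun m' => by
    rw [coeff_monomial]
    split_ifs with e'
    · rw [e']
    · exact by_contra fun c => e' (h5 m' c).symm
  have h7 : 0 < m := Nat.pos_of_ne_zero fun e' => hm' (by
    have := P_entry h hΓ l1 l3 hδ (c := fun _ => 0) (fun _ _ c => absurd rfl c) e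
    rw [hΓ.P_zero l4 fun _ _ => rfl, zero_mul] at this
    rw [e', coeff_zero_eq_eval_zero, ← h2, hΓ.x_zero hγ, map_one, this])
  have h8 : ∀ t, ∀ ε ∈ l, c t ε ≠ 0 → ε = δ := fun t ε hε e' => by
    by_contra c'
    obtain ⟨i, j, hij⟩ := hR.exists_minor (l4 ε hε) (l4 δ hδ) (l3 ε hε).2 (l3 δ hδ).2 c'
    refine mul_ne_zero hij (Int.natCast_ne_zero.2 h7.ne') (zpow_eq (k := k) fun u => ?_)
    have g1 := h_mem (Γ := Γ) i (u ^ R.pr δ j)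
    have g2 := h_mem (Γ := Γ) j (u ^ (-R.pr δ i))
    obtain ⟨s, hs⟩ := σ.surjective (Γ.h i (u ^ R.pr δ j) * Γ.h j (u ^ (-R.pr δ i)))
    have g3 : s ∈ Γ.T := (hT s).1 (hs ▸ mul_mem g1 g2)
    have g4 : ∀ ζ, hΓ.chi ζ (σ s) = u ^ (R.pr ζ i * R.pr δ j - R.pr ζ j * R.pr δ i) := fun ζ => by
      rw [hs, hΓ.chi_mul hR ζ g1 g2, hΓ.chi_h hR, hΓ.chi_h hR, ← _root_.zpow_mul,
        ← _root_.zpow_mul, ← zpow_add]
      congr 1
      ring
    have g5 : hΓ.chi γ (s ^ (m : ℤ)) = 1 := by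
      rw [hΓ.chi_zpow hR γ g3, zpow_natCast, ← h4 s g3 m hm', g4, mul_comm, sub_self, zpow_zero]
    have g6 := zpow_mem g3 (m : ℤ)
    have g7 := h1 _ g6 t
    rw [g5, Units.val_one, one_mul, hc, conj_P hΓ ((hT _).2 g6) l4] at g7
    have g8 := hΓ.P_inj hR l1 l3 g7 ε hε
    rw [map_zpow, hΓ.chi_zpow hR ε ((hT s).2 g3), g4, ← _root_.zpow_mul] at g8
    exact Units.ext (mul_right_cancel₀ e' (g8.trans (one_mul _).symm))
  refine ⟨δ, l3 δ hδ, m, h7, Units.mk0 _ (div_ne_zero hm' hab), fun t => ?_,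
    fun s hs => h4 s hs m hm'⟩
  have h9 := P_entry h hΓ l1 l3 hδ (c := c t) (fun ε g1 g2 => by rw [h8 t ε g1 g2]) e
  rw [← hc, h2, h6, eval_monomial] at h9
  classical
  rw [hc, P_congr (c' := fun ε => if ε = δ then c t δ else 0) fun ε g1 => by
    split_ifs with g2
    · rw [g2]
    · exact by_contra fun c => g2 (h8 t ε g1 c), hΓ.P_single l4 l1 hδ fun ε g => if_neg g,
    if_pos rfl, Units.val_mk0, div_mul_eq_mul_div, h9, mul_div_cancel_right₀ _ hab]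

/-- `σ` maps the root subgroups to polynomial curves. -/
def Crv (Γ : RG R k G) (ρ : G →* Matrix (Fin n) (Fin n) k) (σ : G → G) : Prop :=
  ∀ γ ∈ R.Φ, ∃ Y : Matrix (Fin n) (Fin n) k[X], ∀ t, ρ (σ (Γ.x γ t)) = Y.map (eval t)

omit [Infinite k] h hΓ in
theorem Crv.conj {σ σ' : G → G} (h : Crv Γ ρ σ) (a b : G) (e : ∀ u, σ' u = a * σ u * b) :
    Crv Γ ρ σ' := fun γ hγ => by
  obtain ⟨Y, hY⟩ := h γ hγ
  refine ⟨(ρ a).map C * Y * (ρ b).map C, fun t => ?_⟩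
  have key : ∀ M : Matrix (Fin n) (Fin n) k, (M.map C).map (evalRingHom t) = M := fun M =>
    Matrix.ext fun _ _ => eval_C
  rw [e, map_mul, map_mul, hY, ← coe_evalRingHom, Matrix.map_mul, Matrix.map_mul, key, key]

/-- An automorphism which stabilises `U, V, T` and which is algebraic on the root subgroups. -/
structure Stb (Γ : RG R k G) (ρ : G →* Matrix (Fin n) (Fin n) k) (σ : G ≃* G) : Prop where
  u : ∀ s, σ s ∈ Γ.U ↔ s ∈ Γ.U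
  v : ∀ s, σ s ∈ Γ.V ↔ s ∈ Γ.V
  t : ∀ s, σ s ∈ Γ.T ↔ s ∈ Γ.T
  c : Crv Γ ρ σ
  c' : Crv Γ ρ σ.symm

omit [Infinite k] h hΓ in
theorem Stb.symm {σ : G ≃* G} (H : Stb Γ ρ σ) : Stb Γ ρ σ.symm :=
  ⟨fun s => by rw [← H.u, σ.apply_symm_apply], fun s => by rw [← H.v, σ.apply_symm_apply],
    fun s => by rw [← H.t, σ.apply_symm_apply], H.c', H.c⟩

theorem root_pow {σ : G ≃* G} (H : Stb Γ ρ σ) {γ : R.Q} (hγ : γ ∈ R.Φ) :
    ∃ δ ∈ R.Φ, (0 ≤ γ → 0 ≤ δ) ∧ ∃ m : ℕ, ∃ c : kˣ, (∀ t, σ (Γ.x γ t) = Γ.x δ (c * t ^ m)) ∧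
      ∀ s ∈ Γ.T, hΓ.chi δ (σ s) = hΓ.chi γ s ^ m := by
  have hR := h.ok
  rcases (hR.sign γ hγ).2 with e | e
  · obtain ⟨δ, hδ, m, -, c, h1⟩ := root_curve h hΓ σ H.t hγ
      (fun t => (H.u _).2 (x_mem hγ e t)) (H.c γ hγ)
    exact ⟨δ, hδ.1, fun _ => hδ.2, m, c, h1⟩
  obtain ⟨n₀, w₀, hn, hw⟩ := exists_n0 hΓ hR
  obtain ⟨δ, hδ, m, -, c, h1, h2⟩ := root_curve h hΓ (tw n₀ σ) (fun s => by
      rw [← H.t s, tw_apply]
      exact ⟨fun a => mem_eq (hΓ.nm_N_T hR _ hn.mem_N _ a) (by group),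
        fun a => mem_eq (hΓ.nm_N_T hR _ (inv_mem hn.mem_N) _ a) (by group)⟩) hγ
    (fun t => (n0_U hΓ hR hn hw).2 (mem_eq ((H.v _).2 (x_mem hγ e t)) (by rw [tw_apply]; group)))
    (H.c.conj n₀⁻¹ n₀ (tw_apply n₀ σ) γ hγ)
  obtain ⟨d, hd⟩ := hΓ.rep_conj hR hn hδ.1
  refine ⟨w₀ δ, hR.map_mem hn.mem_W hδ.1, fun c => (hR.not_both hγ c e).elim, m, d * c,
    fun t => ?_, fun s hs => ?_⟩
  · rw [Units.val_mul, mul_assoc, ← (hd _).1, ← h1, tw_apply]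
    group
  · rw [← h2 s hs, ← hΓ.chi_rep hR hn δ (t := tw n₀ σ s)
      (mem_eq (hΓ.nm_N_T hR _ (inv_mem hn.mem_N) _ ((H.t s).2 hs)) (by rw [tw_apply, inv_inv])),
      tw_apply]
    congr 1
    group

theorem root_map {σ : G ≃* G} (H : Stb Γ ρ σ) {γ : R.Q} (hγ : γ ∈ R.Φ) :
    ∃ δ ∈ R.Φ, (0 ≤ γ → 0 ≤ δ) ∧ ∃ c : kˣ, (∀ t, σ (Γ.x γ t) = Γ.x δ (c * t)) ∧
      ∀ s ∈ Γ.T, hΓ.chi δ (σ s) = hΓ.chi γ s := by
  have hR := h.ok
  obtain ⟨δ, hδ, h0, m, c, h1, h2⟩ := root_pow h hΓ H hγ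
  obtain ⟨ε, hε, -, m', c', h3, h4⟩ := root_pow h hΓ H.symm hδ
  have h5 := h3 (c * 1 ^ m)
  rw [← h1, σ.symm_apply_apply] at h5
  obtain rfl := hΓ.x_eq hR hγ hε one_ne_zero h5
  have h6 := chi_inj hΓ hR (γ := (1 : ℤ) • γ) (δ := ((m * m' : ℕ) : ℤ) • γ) fun s hs => by
    have := h4 _ ((H.t s).2 hs)
    rw [σ.symm_apply_apply, h2 s hs, ← pow_mul] at this
    rw [one_smul, hΓ.chi_smul, zpow_natCast, ← this]
  have h7 : 1 = m * m' := by exact_mod_cast smul_left_injective ℤ (hR.sign γ hγ).1 h6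
  obtain rfl : m = 1 := Nat.eq_one_of_mul_eq_one_right h7.symm
  exact ⟨δ, hδ, h0, c, by simpa using h1, by simpa using h2⟩

theorem simple_map {σ : G ≃* G} (H : Stb Γ ρ σ) (i : Fin R.r) :
    ∃ j, ∀ s ∈ Γ.T, hΓ.chi (R.α j) (σ s) = hΓ.chi (R.α i) s := by
  have hR := h.ok
  obtain ⟨δ, hδ, h0, -, -, h1⟩ := root_map h hΓ H (hR.simple i)
  choose β b1 b2 _ _ b3 using fun j => root_map h hΓ H.symm (hR.simple j)
  have h2 : R.α i = ∑ j, δ j • β j := chi_inj hΓ hR fun s hs => by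
    rw [← h1 s hs, hΓ.chi_sum]
    conv_lhs => rw [RS.eq_sum δ, hΓ.chi_sum]
    refine Finset.prod_congr rfl fun j _ => ?_
    rw [hΓ.chi_smul, hΓ.chi_smul, ← b3 j _ ((H.t s).2 hs), σ.symm_apply_apply]
  have h3 := h0 (RS.α_nonneg i)
  obtain ⟨j, rfl⟩ := hR.eq_α_of_ht ⟨hδ, h3⟩ (by
    have h4 : R.ht (∑ j, δ j • β j) = ∑ j, δ j * R.ht (β j) := by
      simp only [RS.ht, Finset.sum_apply, Pi.smul_apply, smul_eq_mul, Finset.mul_sum]
      exact Finset.sum_comm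
    rw [← RS.ht_α i, h2, h4]
    exact Finset.sum_le_sum fun j _ =>
      le_mul_of_one_le_right (h3 j) (hR.ht_pos ⟨b1 j, b2 j (RS.α_nonneg j)⟩))
  exact ⟨j, h1⟩

theorem stb_std {σ : G ≃* G} (H : Stb Γ ρ σ) :
    ∃ (c : Fin R.r → kˣ) (π : Equiv.Perm (Fin R.r)), (∀ i j, R.A (π i) (π j) = R.A i j) ∧
      ∀ i u, σ (Γ.x (R.α i) u) = Γ.x (R.α (π i)) (c i * u) ∧
        σ (Γ.x (-R.α i) u) = Γ.x (-R.α (π i)) ((c i)⁻¹ * u) := by
  have hR := h.ok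
  choose f hf using simple_map h hΓ H
  have h0 : ∀ γ δ, (∀ s ∈ Γ.T, hΓ.chi γ (σ s) = hΓ.chi δ (σ s)) → γ = δ := fun γ δ e =>
    chi_inj hΓ hR fun s hs => by
      obtain ⟨s, rfl⟩ := σ.surjective s
      exact e s ((H.t s).1 hs)
  have h1 : Function.Injective f := fun i j e => RS.α_inj (chi_inj hΓ hR fun s hs => by
    rw [← hf i s hs, e, hf j s hs])
  have h2 : ∀ i, ∃ c : kˣ, ∀ u, σ (Γ.x (R.α i) u) = Γ.x (R.α (f i)) (c * u) := fun i => by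
    obtain ⟨δ, -, -, c, e1, e2⟩ := root_map h hΓ H (hR.simple i)
    exact ⟨c, h0 δ _ (fun s hs => (e2 s hs).trans (hf i s hs).symm) ▸ e1⟩
  have h3 : ∀ i, ∃ c : kˣ, ∀ u, σ (Γ.x (-R.α i) u) = Γ.x (-R.α (f i)) (c * u) := fun i => by
    obtain ⟨δ, -, -, c, e1, e2⟩ := root_map h hΓ H (hR.neg_mem (hR.simple i))
    exact ⟨c, h0 δ (-R.α (f i)) (fun s hs => by
      rw [e2 s hs, hΓ.chi_neg, hΓ.chi_neg, hf i s hs]) ▸ e1⟩
  choose c hc using h2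
  choose d hd using h3
  have h4 : ∀ i, d i = (c i)⁻¹ := fun i => by
    have g1 := hR.simple (f i)
    obtain ⟨t, ht⟩ : ∃ t : kˣ, t ^ (2 : ℤ) ≠ 1 := not_forall.1 fun e => by
      simpa using zpow_eq e
    obtain ⟨a, ha⟩ : ∃ a : k, a = c i - (d i)⁻¹ := ⟨_, rfl⟩
    have g2 : σ (Γ.n i) = Γ.x (R.α (f i)) a * (Γ.h (f i) (d i)⁻¹ * Γ.n (f i)) *
        Γ.x (R.α (f i)) a := by
      rw [← hΓ.sl, inv_inv, RG.n, map_mul, map_mul, hc, hd, mul_one, mul_neg_one,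
        show (c i : k) = a + ((d i)⁻¹ : kˣ) by rw [ha]; simp]
      nth_rewrite 2 [add_comm a]
      rw [hΓ.add _ g1, hΓ.add _ g1]
      group
    have g3 := h_mem (Γ := Γ) (f i) t
    obtain ⟨s, hs⟩ := σ.surjective (Γ.h (f i) t)
    have g4 := (H.t _).2 (hΓ.nm_N_T hR _ (inv_mem (n_mem i)) s ((H.t s).1 (hs ▸ g3)))
    rw [inv_inv, map_mul, map_mul, map_inv, hs] at g4
    generalize hz : (σ (Γ.n i))⁻¹ * Γ.h (f i) t * σ (Γ.n i) = z at g4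
    have g5 : Γ.Rep (Γ.h (f i) (d i)⁻¹ * Γ.n (f i)) (R.sE (f i)) := (rep_n _).T_mul (h_mem _ _)
    have g6 : ∀ b, Γ.x (R.α (f i)) b ∈ Γ.X (R.Inv (R.sE (f i))) := fun b =>
      x_mem g1 (by rw [hR.Inv_sE]; rfl) b
    have g7 := (hΓ.bruhat_unique hR (g5.T_mul g3) (g5.mul_T g4)
      (hΓ.nm_Bo _ (T_le_Bo g3) _ (x_mem g1 (RS.α_nonneg _) a)) (x_mem g1 (RS.α_nonneg _) a)
      (g6 a) (hΓ.nm_T_X _ _ (inv_mem g4) _ (g6 a)) (by
        have := inv_mul_eq_iff_eq_mul.1 ((mul_assoc _ _ _).symm.trans hz)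
        rw [g2] at this
        calc _ = Γ.h (f i) t * (Γ.x (R.α (f i)) a * (Γ.h (f i) (d i)⁻¹ * Γ.n (f i)) *
              Γ.x (R.α (f i)) a) := by group
          _ = _ := by rw [this]; group)).1
    rw [hΓ.hx _ _ _ g1, RS.pr_α, hR.diag] at g7
    have g8 : a = 0 := by_contra fun e => ht (Units.ext
      (mul_right_cancel₀ e ((hΓ.x_inj hR g1 g7).trans (one_mul a).symm)))
    rw [g8, eq_comm, sub_eq_zero] at ha
    rw [Units.ext ha, inv_inv]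
  have h5 : ∀ i t, σ (Γ.h i t * Γ.n i) = Γ.h (f i) (c i * t) * Γ.n (f i) := fun i t => by
    rw [← hΓ.sl, ← hΓ.sl, map_mul, map_mul, hc, hd, h4]
    congr 3
    simp [mul_comm]
  have h6 : ∀ i t, σ (Γ.h i t) = Γ.h (f i) t := fun i t => by
    have g1 := h5 i t
    have g2 := h5 i 1
    rw [map_one, one_mul, mul_one] at g2
    rw [map_mul, g2, mul_comm, map_mul, mul_assoc] at g1
    exact mul_right_cancel g1
  refine ⟨c, Equiv.ofBijective f (Finite.injective_iff_bijective.1 h1), fun i j =>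
    zpow_inj (k := k) fun t => ?_, fun i u => ⟨hc i u, (hd i u).trans (by rw [h4]; simp)⟩⟩
  have := hf i _ (h_mem j t)
  rwa [h6, hΓ.chi_h hR, hΓ.chi_h hR, RS.pr_α, RS.pr_α] at this

end Vale.Agent.P011UB
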