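import Vale.Agent.P011UB.Fix
import Vale.Agent.P011UB.Root
import Vale.Agent.P011U.IF

/-!
The algebraic automorphisms of simply connected Chevalley groups.
-/

set_option autoImplicit false
set_option linter.all false

namespace Vale.Agent.P011UB

open Matrix Polynomial Vale.Agent.P183CH Vale.Agent.P183CH.RG Vale.Agent.P183CH.Chev
  Vale.Agent.P011U Vale.Agent.P011L

variable {D : Chev} {K : Type} [Field K]

theorem crv_of_pol {ψ : D.grp K ≃* D.grp K} (h : Pol ψ) : Crv (GG D K) (D.nat K) ψ := by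
  intro γ hγ
  choose p hp using h
  refine ⟨of fun i j => MvPolynomial.aeval (fun e => xm (D.EE γ) (Polynomial.X : K[X]) e.1 e.2)
    (p i j), fun t => Matrix.ext fun i j => (hp i j _).trans ?_⟩
  rw [map_apply, of_apply, ← coe_aeval_eq_eval, ← AlgHom.comp_apply, MvPolynomial.comp_aeval]
  refine congrArg (MvPolynomial.eval · (p i j)) (_root_.funext fun e => ?_)
  have := congrFun (congrFun (xm_map (evalRingHom t) (D.EE γ) Polynomial.X) e.1) e.2
  rw [coe_evalRingHom, eval_X] at this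
  exact (congrFun (congrFun (GG_mat.x_eq γ hγ t) e.1) e.2).trans this.symm

/-- The automorphisms which are algebraic on the root subgroups. -/
theorem aut_of_crv [Infinite K] (hD : SC D) (ψ : D.grp K ≃* D.grp K)
    (h : Crv (GG D K) (D.nat K) ψ) (h' : Crv (GG D K) (D.nat K) ψ.symm) :
    ∃ g c π, Std (GG D K) ψ id g c π := by
  obtain ⟨g, hg⟩ := map_U hD ψ.toMonoidHom fun γ hγ => h γ hγ.1
  obtain ⟨g', hg'⟩ := map_U hD ψ.symm.toMonoidHom fun γ hγ => h' γ hγ.1
  obtain ⟨a, h1, h2, h3⟩ := normalise GG_ok (R_ok D) ψ hg hg'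
  obtain ⟨c, π, h4, h5⟩ := stb_std GG_mat GG_ok (σ := tw a ψ)
    ⟨h1, h2, h3, h.conj _ _ (tw_apply a ψ), h'.conj _ _ (tw_symm a ψ)⟩
  have key : ∀ u, ψ u = a * tw a ψ u * a⁻¹ := fun u => by rw [tw_apply]; group
  exact ⟨a, c, π, h4, fun i u => ⟨by rw [key, (h5 i u).1]; rfl, by rw [key, (h5 i u).2]; simp⟩⟩

/-- **The automorphisms.** -/
theorem aut : AUT := fun _ hD _ _ _ ψ h h' => aut_of_crv hD ψ (crv_of_pol h) (crv_of_pol h')

end Vale.Agent.P011UB
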