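import Vale.Agent.P183CH2.Main
import Vale.Agent.P183CH1B.Mat
import Mathlib.LinearAlgebra.Matrix.Block

/-!
The Iwasawa decomposition, normalisers of `U`, block triangular elements.
-/

set_option autoImplicit false
set_option linter.all false

namespace Vale.Agent.P011UB

open Matrix Subgroup Vale.Agent.P183A Vale.Agent.P183CH Vale.Agent.P183CH.RG

variable {R : RS} {k : Type} [Field k] {G : Type} [Group G] {Γ : RG R k G}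

theorem mem_eq {S : Subgroup G} {a b : G} (h : a ∈ S) (e : a = b) : b ∈ S := e ▸ h

/-- an automorphism followed by an inner one -/
def tw (a : G) (ψ : G ≃* G) : G ≃* G := ψ.trans (MulAut.conj a).symm

theorem tw_apply (a : G) (ψ : G ≃* G) (u : G) : tw a ψ u = a⁻¹ * ψ u * a := rfl

theorem tw_symm (a : G) (ψ : G ≃* G) (u : G) :
    (tw a ψ).symm u = ψ.symm a * ψ.symm u * (ψ.symm a)⁻¹ := by
  rw [← map_inv, ← map_mul, ← map_mul]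
  rfl

section
variable (hΓ : Γ.Ok) (hR : R.Ok)
include hΓ hR

theorem iwa {O : Set k} (h1 : (1 : k) ∈ O) (h2 : (-1 : k) ∈ O)
    (hO : ∀ a : k, a ∈ O ∨ (a ≠ 0 ∧ a⁻¹ ∈ O)) {L : Subgroup G}
    (hL : ∀ γ ∈ R.Φ, ∀ a ∈ O, Γ.x γ a ∈ L) (g : G) : ∃ b ∈ Γ.Bo, ∃ y ∈ L, g = b * y := by
  have key : ∀ w ∈ R.W, ∀ n, Γ.Rep n w → ∀ b ∈ Γ.Bo, ∃ b' ∈ Γ.Bo, ∃ y ∈ L, n * b = b' * y := by
    intro w hw
    refine hR.ind (J := Set.univ) (P := fun w => ∀ n, Γ.Rep n w → ∀ b ∈ Γ.Bo,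
      ∃ b' ∈ Γ.Bo, ∃ y ∈ L, n * b = b' * y) (fun n h b hb =>
        ⟨_, mul_mem (T_le_Bo (hΓ.rep_one hR h)) hb, 1, one_mem _, (mul_one _).symm⟩) ?_ hw
    intro w _ j _ _ ih n h b hb
    obtain ⟨u, hu, t, ht, rfl⟩ := hΓ.mem_Bo.1 hb
    have h3 : Γ.Rep (n * t * (Γ.n j)⁻¹) w := by
      simpa [hR.sE_inv, hR.mul_sE_sE] using (h.mul_T ht).mul (rep_n j).inv
    obtain ⟨a, ha, c, hc, e⟩ := hΓ.split_UJ hR (J := Set.univ) (RS.sE_mem_W j)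
      (UJ_univ (Γ := Γ) ▸ hΓ.nm_Bo _ (T_le_Bo (inv_mem ht)) u hu)
    have h4 := hΓ.conj_U hR (rep_n j) (X_mono (fun _ e _ => e.2) ha)
    obtain ⟨s, rfl⟩ := hΓ.mem_X_single (hR.simple j) (fun γ e => hR.Inv_sE j ▸ e.2) hc
    have h5 := hR.simple j
    have h6 := hR.neg_mem h5
    obtain ⟨b₁, hb₁, y₁, hy₁, e₁⟩ : ∃ b₁ ∈ Γ.Bo, ∃ y₁ ∈ L, Γ.n j * Γ.x (R.α j) s = b₁ * y₁ := by
      rcases hO s with hs | ⟨h0, hs⟩
      · exact ⟨1, one_mem _, _, mul_mem (mul_mem (mul_mem (hL _ h5 _ h1) (hL _ h6 _ h2))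
          (hL _ h5 _ h1)) (hL _ h5 _ hs), (one_mul _).symm⟩
      · have h7 := hΓ.sl j (-Units.mk0 s h0)
        rw [show -(((-Units.mk0 s h0)⁻¹ : kˣ) : k) = s⁻¹ by simp,
          show ((-Units.mk0 s h0 : kˣ) : k) = -s from rfl, hΓ.x_neg h5] at h7
        refine ⟨_, mul_mem (inv_mem (T_le_Bo (h_mem j (-Units.mk0 s h0))))
          (inv_mem (U_le_Bo (x_mem h5 (RS.α_nonneg j) s))), _, hL _ h6 _ hs, ?_⟩
        rw [eq_inv_mul_iff_mul_eq.2 h7.symm]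
        group
    obtain ⟨b', hb', y, hy, e'⟩ := ih _ h3 _ (mul_mem (U_le_Bo h4) hb₁)
    refine ⟨b', hb', _, mul_mem hy hy₁, ?_⟩
    rw [← mul_assoc b', ← e', mul_assoc _ (_ * b₁), mul_assoc _ b₁, ← e₁,
      show n * (u * t) = n * t * (t⁻¹ * u * t⁻¹⁻¹) by group, e]
    group
  obtain ⟨u, hu, n, w, h, u', hu', rfl⟩ := hΓ.bruhat hR g
  obtain ⟨b, hb, y, hy, e⟩ := key w h.mem_W n h u' (U_le_Bo (X_le_U (RS.cl_Inv _).1 hu'))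
  exact ⟨_, mul_mem (U_le_Bo hu) hb, y, hy, by rw [mul_assoc, e, mul_assoc]⟩

theorem mem_Bo_of_nm {g : G} (h : ∀ u ∈ Γ.U, g * u * g⁻¹ ∈ Γ.U) : g ∈ Γ.Bo := by
  obtain ⟨u, hu, n, w, hn, u', hu', rfl⟩ := hΓ.bruhat hR g
  have h1 := X_le_U (RS.cl_Inv _).1 hu'
  have : w = 1 := hR.eq_one hn.mem_W fun j _ => by
    have h2 := x_mem (Γ := Γ) (S := {γ | 0 ≤ γ}) (hR.simple j) (RS.α_nonneg j) 1
    have := (hΓ.conj_mem_U hR hn h2).1 (by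
      have := mul_mem (mul_mem (inv_mem hu) (h _ (mul_mem (mul_mem (inv_mem h1) h2) h1))) hu
      exact (congrArg (· ∈ Γ.U) (by group)).mp this)
    exact ((hΓ.x_mem_iff hR (RS.cl_pos w) (hR.α_pos j) one_ne_zero).1 this).2.2
  exact mul_mem (mul_mem (U_le_Bo hu) (T_le_Bo (hΓ.rep_one hR (this ▸ hn)))) (U_le_Bo h1)

theorem exists_n0 : ∃ n w, Γ.Rep n w ∧ R.Lg Set.univ w := by
  obtain ⟨w, h⟩ := hR.exists_Lg Set.univ
  obtain ⟨n, -, h'⟩ := exists_rep' (Γ := Γ) h.1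
  exact ⟨n, w, h', h⟩

theorem n0_U {n g : G} {w : R.Aut} (h : Γ.Rep n w) (hw : R.Lg Set.univ w) :
    g ∈ Γ.U ↔ n * g * n⁻¹ ∈ Γ.V := by
  rw [← UJ_univ, ← VJ_univ]
  exact hΓ.Lg_conj hR h hw

theorem n0_V {n g : G} {w : R.Aut} (h : Γ.Rep n w) (hw : R.Lg Set.univ w) :
    g ∈ Γ.V ↔ n * g * n⁻¹ ∈ Γ.U := by
  rw [← UJ_univ, ← VJ_univ]
  exact hΓ.Lg_conj' hR h hw

theorem mem_T_of_nm {g : G} (h : ∀ u ∈ Γ.U, g * u * g⁻¹ ∈ Γ.U)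
    (h' : ∀ u ∈ Γ.V, g * u * g⁻¹ ∈ Γ.V) : g ∈ Γ.T := by
  obtain ⟨n, w, hn, hw⟩ := exists_n0 hΓ hR
  obtain ⟨u, hu, t, ht, rfl⟩ := hΓ.mem_Bo.1 (mem_Bo_of_nm hΓ hR h)
  obtain ⟨u', hu', t', ht', e⟩ := hΓ.mem_Bo.1 (mem_Bo_of_nm hΓ hR (g := n⁻¹ * (u * t) * n)
    fun a ha => (n0_U hΓ hR hn hw).2
      ((congrArg (· ∈ Γ.V) (by group)).mp (h' _ ((n0_U hΓ hR hn hw).1 ha))))
  have h1 := hΓ.nm_N_T hR _ hn.mem_N _ ht'
  have h2 := (hΓ.tri u hu _ (mul_mem ht (inv_mem h1)) (by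
    have := (n0_U hΓ hR hn hw).1 hu'
    rw [eq_mul_inv_of_mul_eq e.symm] at this
    exact (congrArg (· ∈ Γ.V) (by group)).mp this)).1
  rwa [h2, one_mul]

theorem stab_U (ψ : G ≃* G) {g : G} (h : ∀ u ∈ Γ.U, ψ u ∈ Γ.U)
    (h' : ∀ u ∈ Γ.U, g⁻¹ * ψ.symm u * g ∈ Γ.U) (u : G) : ψ u ∈ Γ.U ↔ u ∈ Γ.U := by
  have h1 : g⁻¹ ∈ Γ.Bo := mem_Bo_of_nm hΓ hR fun u hu => by
    simpa using h' _ (h u hu)
  refine ⟨fun e => ?_, h u⟩
  have := hΓ.nm_Bo _ (inv_mem h1) _ (h' _ e)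
  rw [MulEquiv.symm_apply_apply] at this
  exact mem_eq this (by group)

theorem stab_V (ψ : G ≃* G) (h : ∀ u, ψ u ∈ Γ.U ↔ u ∈ Γ.U) :
    ∃ a ∈ Γ.U, ∀ v, a⁻¹ * ψ v * a ∈ Γ.V ↔ v ∈ Γ.V := by
  obtain ⟨n₀, w₀, hn₀, hw₀⟩ := exists_n0 hΓ hR
  obtain ⟨a, ha, n, w, hn, u', hu', e⟩ := hΓ.bruhat hR (ψ n₀)
  have h3 := X_le_U (RS.cl_Inv _).1 hu'
  have h4 : ∀ v, v ∈ Γ.V ↔ n⁻¹ * (a⁻¹ * ψ v * a) * n ∈ Γ.U := fun v => by
    have h5 := (h (n₀⁻¹ * v * n₀)).trans (n0_U hΓ hR hn₀ hw₀)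
    rw [show n₀ * (n₀⁻¹ * v * n₀) * n₀⁻¹ = v by group, map_mul, map_mul, map_inv, e] at h5
    rw [← h5]
    exact ⟨fun c => mem_eq (mul_mem (mul_mem h3 c) (inv_mem h3)) (by group),
      fun c => mem_eq (mul_mem (mul_mem (inv_mem h3) c) h3) (by group)⟩
  have h6 : R.Lg Set.univ w := ⟨hn.mem_W, fun j _ => (hR.sign' hn.mem_W (hR.simple j)).resolve_left
    fun c => by
      obtain ⟨d, hd⟩ := hΓ.rep_conj hR hn (hR.simple j)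
      have h7 := hR.map_mem hn.mem_W (hR.simple j)
      obtain ⟨z, hz⟩ := ψ.surjective (a * Γ.x (w (R.α j)) (d * 1) * a⁻¹)
      have h9 := hΓ.U_inf_V ((h z).1 (hz ▸ mul_mem (mul_mem ha (x_mem h7 c _)) (inv_mem ha)))
        ((h4 _).2 (by
          rw [hz, ← (hd 1).1]
          exact mem_eq (x_mem (hR.simple j) (RS.α_nonneg j) 1) (by group)))
      rw [h9, map_one, eq_comm, mul_inv_eq_one, mul_eq_left] at hz
      exact d.ne_zero (by simpa using hΓ.x_eq_one hR h7 hz)⟩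
  refine ⟨a, ha, fun v => ?_⟩
  rw [h4 v, n0_U hΓ hR hn h6]
  exact Iff.of_eq (congrArg (· ∈ Γ.V) (by group))

theorem stab_T (ψ : G ≃* G) (h : ∀ u, ψ u ∈ Γ.U ↔ u ∈ Γ.U) (h' : ∀ u, ψ u ∈ Γ.V ↔ u ∈ Γ.V)
    (t : G) : ψ t ∈ Γ.T ↔ t ∈ Γ.T := by
  have h9 : ∀ v, ψ (t * v * t⁻¹) = ψ t * ψ v * (ψ t)⁻¹ := fun v => by
    rw [map_mul, map_mul, map_inv]
  refine ⟨fun ht => mem_T_of_nm hΓ hR (fun v hv => ?_) fun v hv => ?_,
    fun ht => mem_T_of_nm hΓ hR (fun v hv => ?_) fun v hv => ?_⟩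
  · exact (h _).1 (mem_eq (hΓ.nm_T_X _ _ ht _ ((h v).2 hv)) (h9 v).symm)
  · exact (h' _).1 (mem_eq (hΓ.nm_T_X _ _ ht _ ((h' v).2 hv)) (h9 v).symm)
  · obtain ⟨v, rfl⟩ := ψ.surjective v
    exact mem_eq ((h _).2 (hΓ.nm_T_X _ _ ht _ ((h _).1 hv))) (h9 v)
  · obtain ⟨v, rfl⟩ := ψ.surjective v
    exact mem_eq ((h' _).2 (hΓ.nm_T_X _ _ ht _ ((h' _).1 hv))) (h9 v)

/-- an automorphism which maps `U` into a conjugate is, up to an inner one, stable on `U, V, T` -/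
theorem normalise (ψ : G ≃* G) {g g' : G} (h : ∀ u ∈ Γ.U, g⁻¹ * ψ u * g ∈ Γ.U)
    (h' : ∀ u ∈ Γ.U, g'⁻¹ * ψ.symm u * g' ∈ Γ.U) : ∃ a : G,
      (∀ u, tw a ψ u ∈ Γ.U ↔ u ∈ Γ.U) ∧ (∀ u, tw a ψ u ∈ Γ.V ↔ u ∈ Γ.V) ∧
      ∀ u, tw a ψ u ∈ Γ.T ↔ u ∈ Γ.T := by
  have h1 := stab_U hΓ hR (tw g ψ) (g := ψ.symm g * g') h fun u hu =>
    mem_eq (h' u hu) (by rw [tw_symm]; group)
  obtain ⟨a, ha, h2⟩ := stab_V hΓ hR _ h1
  have h3 : ∀ u, tw (g * a) ψ u = a⁻¹ * tw g ψ u * a := fun u => by rw [tw_apply, tw_apply]; group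
  have h4 : ∀ u, tw (g * a) ψ u ∈ Γ.U ↔ u ∈ Γ.U := fun u => by
    rw [h3, ← h1 u]
    exact ⟨fun c => mem_eq (mul_mem (mul_mem ha c) (inv_mem ha)) (by group),
      fun c => mul_mem (mul_mem (inv_mem ha) c) ha⟩
  have h5 : ∀ u, tw (g * a) ψ u ∈ Γ.V ↔ u ∈ Γ.V := fun u => by rw [h3, h2]
  exact ⟨_, h4, h5, stab_T hΓ hR _ h4 h5⟩

end

variable {n : ℕ} {w : Fin n → Fin R.r → ℤ} {E : R.Q → ℕ → Matrix (Fin n) (Fin n) ℤ}
  {ρ : G →* Matrix (Fin n) (Fin n) k}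

/-- block triangular matrices for the height filtration -/
def Up (R : RS) (w : Fin n → Fin R.r → ℤ) {K : Type} [CommRing K]
    (M : Matrix (Fin n) (Fin n) K) : Prop := Fl (fun a => 1 * R.wht (w a)) 0 M

theorem Up.mul {K : Type} [CommRing K] {M N : Matrix (Fin n) (Fin n) K} (h : Up R w M)
    (h' : Up R w N) : Up R w (M * N) := Fl.mul h h'

theorem up_diag {K : Type} [CommRing K] (d : Fin n → K) : Up R w (diagonal d) := fun a b e => by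
  obtain rfl : a = b := by_contra fun c => e (diagonal_apply_ne _ c)
  simp

theorem Up.inv {M N : Matrix (Fin n) (Fin n) k} (h : Up R w M) (e : N * M = 1) : Up R w N := by
  unfold Up at h ⊢
  generalize (fun a => 1 * R.wht (w a)) = f at h ⊢
  have := invertibleOfLeftInverse _ _ e
  have h1 : BlockTriangular M fun a => -f a := fun a b c => by_contra fun c' => by
    have := h a b c'
    dsimp only at c
    omega
  have h2 := blockTriangular_inv_of_blockTriangular h1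
  rw [inv_eq_left_inv e] at h2
  exact fun a b c => by_contra fun c' => c (h2 (by dsimp only; omega))

theorem fl_conj {M N P : Matrix (Fin n) (Fin n) k} (h : Up R w M)
    (h' : Fl (fun a => 1 * R.wht (w a)) 1 N) (h'' : Up R w P) :
    Fl (fun a => 1 * R.wht (w a)) 1 (M * N * P) := by
  simpa using (Fl.mul h h').mul h''

theorem fl_zero {M : Matrix (Fin n) (Fin n) k} {f : Fin n → ℤ} (h : Fl (fun a => 1 * f a) 1 M)
    (h' : Fl (fun a => -1 * f a) 1 M) : M = 0 := by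
  ext a b
  by_contra c
  have := h a b c
  have := h' a b c
  dsimp only at *
  omega

section
variable (h : Γ.Mat ρ w E) (hΓ : Γ.Ok)
include h hΓ

theorem up_of_mem {g : G} (hg : g ∈ Γ.Bo) : Up R w (ρ g) := by
  obtain ⟨u, hu, t, ht, rfl⟩ := hΓ.mem_Bo.1 hg
  obtain ⟨d, hd⟩ := h.diag_T ht
  rw [map_mul, hd, ← sub_add_cancel (ρ u) 1, ← diagonal_one]
  exact Up.mul (Fl.add ((h.fl_U hu).mono zero_le_one) (up_diag _)) (up_diag d)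

theorem rep_of_up {m : G} {v : R.Aut} (hm : Γ.Rep m v) (h2 : Up R w (ρ m)) : v = 1 := by
  have hR := h.ok
  have h3 : Up R w (ρ m⁻¹) := h2.inv (by rw [← map_mul, inv_mul_cancel, map_one])
  refine hR.eq_one hm.mem_W fun j _ => (hR.sign' hm.mem_W (hR.simple j)).resolve_right
    fun c => ?_
  obtain ⟨d, hd⟩ := hΓ.rep_conj hR hm (hR.simple j)
  have h7 := hR.map_mem hm.mem_W (hR.simple j)
  have h4 := h.fl_V (g := Γ.x (v (R.α j)) (d * 1)) (x_mem h7 c _)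
  have h5 := fl_conj h2 (h.fl_U (g := Γ.x (R.α j) 1) (x_mem (hR.simple j) (RS.α_nonneg j) 1)) h3
  rw [mul_sub (ρ m), sub_mul, mul_one (ρ m), ← map_mul ρ, ← map_mul ρ, ← map_mul ρ, (hd 1).1,
    mul_inv_cancel, map_one] at h5
  have h6 : Γ.x (v (R.α j)) (d * 1) = 1 :=
    h.inj ((sub_eq_zero.1 (fl_zero h5 h4)).trans (map_one ρ).symm)
  exact d.ne_zero ((mul_one _).symm.trans (hΓ.x_eq_one hR h7 h6))

theorem mem_of_up {g : G} (hg : Up R w (ρ g)) : g ∈ Γ.Bo := by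
  have hR := h.ok
  obtain ⟨u, hu, m, v, hm, u', hu', rfl⟩ := hΓ.bruhat hR g
  have h1 := X_le_U (RS.cl_Inv _).1 hu'
  have h2 := ((up_of_mem h hΓ (U_le_Bo (inv_mem hu))).mul hg).mul
    (up_of_mem h hΓ (U_le_Bo (inv_mem h1)))
  rw [← map_mul, ← map_mul, show u⁻¹ * (u * m * u') * u'⁻¹ = m by group] at h2
  obtain rfl := rep_of_up h hΓ hm h2
  exact mul_mem (mul_mem (U_le_Bo hu) (T_le_Bo (hΓ.rep_one hR hm))) (U_le_Bo h1)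

theorem mem_U_of_diag {g : G} (hg : g ∈ Γ.Bo) (h1 : ∀ a, ρ g a a = 1) : g ∈ Γ.U := by
  obtain ⟨u, hu, t, ht, rfl⟩ := hΓ.mem_Bo.1 hg
  obtain ⟨d, hd⟩ := h.diag_T ht
  have : t = 1 := h.inj (by
    rw [hd, map_one, ← diagonal_one]
    congr 1
    funext a
    have := h1 a
    rwa [map_mul, hd, mul_diagonal, Mat.diag_of (h.fl_U hu), one_mul] at this)
  rwa [this, mul_one]

theorem diag_mul {g g' : G} (hg : g ∈ Γ.Bo) (hg' : g' ∈ Γ.Bo) (a : Fin n) :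
    ρ (g * g') a a = ρ g a a * ρ g' a a := by
  obtain ⟨u, hu, t, ht, rfl⟩ := hΓ.mem_Bo.1 hg
  obtain ⟨u', hu', t', ht', rfl⟩ := hΓ.mem_Bo.1 hg'
  obtain ⟨d, hd⟩ := h.diag_T ht
  obtain ⟨d', hd'⟩ := h.diag_T ht'
  have h1 := mul_mem hu (hΓ.nm_T_X _ _ ht _ hu')
  rw [show u * t * (u' * t') = u * (t * u' * t⁻¹) * (t * t') by group, map_mul _ _ (t * t'),
    map_mul _ t t', map_mul _ u t, map_mul _ u' t', hd, hd', diagonal_mul_diagonal, mul_diagonal,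
    mul_diagonal, mul_diagonal, Mat.diag_of (h.fl_U hu), Mat.diag_of (h.fl_U hu'),
    Mat.diag_of (h.fl_U h1), one_mul, one_mul, one_mul]

end

end Vale.Agent.P011UB
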