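import Vale.Agent.P011UA.A0
import Mathlib.FieldTheory.RatFunc.Valuation
import Mathlib.FieldTheory.Laurent
import Mathlib.Order.Filter.FilterProduct
import Mathlib.Order.Filter.Ultrafilter.Basic

/-!
The place at infinity of the field of rational functions; polynomial curves in Chevalley groups.
-/

set_option autoImplicit false
set_option linter.all false

namespace Vale.Agent.P011UB

open Matrix Polynomial Filter Vale.Agent.P183CH Vale.Agent.P183CH.RG Vale.Agent.P183CH.Chev
  Vale.Agent.P011U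

/-- the graph of the reduction at the place at infinity -/
theorem place (K : Type) [Field K] : ∃ P : Subring (RatFunc K × K),
    (∀ c : K, (RatFunc.C c, c) ∈ P) ∧ (∀ x ∈ P, x.1 = 0 → x.2 = 0) ∧
    (∀ a : K, ∀ x ∈ P, (RatFunc.laurent a x.1, x.2) ∈ P) ∧
    ∀ f : RatFunc K, (∃ c, (f, c) ∈ P) ∨ (f ≠ 0 ∧ ∃ c, (f⁻¹, c) ∈ P) := by
  classical
  let v := RatFunc.inftyValuation K
  have h1 : ∀ c : K, v (RatFunc.C c) ≤ 1 := fun c => by
    by_cases h : c = 0
    · simp [h]
    · exact (RatFunc.inftyValuation.C K h).le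
  have h2 : ∀ p : K[X], p ≠ 0 → v (algebraMap _ _ p) = WithZero.exp (p.natDegree : ℤ) :=
    fun p hp => RatFunc.inftyValuation.polynomial K hp
  have h3 : ∀ (a : K) (p : K[X]), v (algebraMap _ _ (taylor a p)) = v (algebraMap _ _ p) :=
    fun a p => by
      by_cases h : p = 0
      · simp [h]
      · rw [h2 _ h, h2 _ (mt (taylor_eq_zero _ _).1 h), natDegree_taylor]
  have h4 : ∀ (a : K) f, v (RatFunc.laurent a f) = v f := fun a f => by
    induction f using RatFunc.induction_on with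
    | f p q hq => rw [RatFunc.laurent_div, map_div₀, map_div₀, h3, h3]
  have h5 : ∀ f, v f ≤ 1 → ∃ c, v (f - RatFunc.C c) < 1 := fun f hf => by
    induction f using RatFunc.induction_on with
    | f p q hq =>
      have hq' : v (algebraMap _ _ q) ≠ 0 := by rw [h2 q hq]; exact WithZero.exp_ne_zero
      have hq0 : algebraMap K[X] (RatFunc K) q ≠ 0 := fun c => hq' (by rw [c, map_zero])
      have hd : p.natDegree ≤ q.natDegree := by
        by_cases h : p = 0
        · simp [h]
        · rwa [map_div₀, div_le_one₀ (zero_lt_iff.2 hq'), h2 p h, h2 q hq, WithZero.exp_le_exp,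
            Nat.cast_le] at hf
      refine ⟨p.coeff q.natDegree / q.leadingCoeff, ?_⟩
      rw [← RatFunc.algebraMap_C, div_sub' hq0, ← map_mul, ← map_sub, map_div₀,
        div_lt_one₀ (zero_lt_iff.2 hq')]
      by_cases h : p - q * C (p.coeff q.natDegree / q.leadingCoeff) = 0
      · rw [h, map_zero, map_zero]
        exact zero_lt_iff.2 hq'
      rw [h2 _ h, h2 q hq, WithZero.exp_lt_exp, Nat.cast_lt]
      refine lt_of_le_of_ne ((natDegree_sub_le _ _).trans (max_le hd (natDegree_mul_C_le _ _)))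
        fun c => leadingCoeff_ne_zero.2 h ?_
      rw [leadingCoeff, c, coeff_sub, coeff_mul_C, coeff_natDegree,
        mul_div_cancel₀ _ (leadingCoeff_ne_zero.2 hq), sub_self]
  refine ⟨{ carrier := {x | v (x.1 - RatFunc.C x.2) < 1}
            mul_mem' := fun {x y} hx hy => ?_
            one_mem' := by simp
            add_mem' := fun {x y} hx hy => ?_
            zero_mem' := by simp
            neg_mem' := fun {x} hx => ?_ }, fun c => ?_, fun x hx h => ?_, fun a x hx => ?_,
    fun f => ?_⟩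
  · show v (x.1 * y.1 - RatFunc.C (x.2 * y.2)) < 1
    rw [map_mul, show x.1 * y.1 - RatFunc.C x.2 * RatFunc.C y.2 =
      (x.1 - RatFunc.C x.2) * (y.1 - RatFunc.C y.2) + ((x.1 - RatFunc.C x.2) * RatFunc.C y.2 +
        (y.1 - RatFunc.C y.2) * RatFunc.C x.2) by ring]
    have key : ∀ a b, v a < 1 → v b ≤ 1 → v (a * b) < 1 := fun a b ha hb => by
      rw [map_mul]
      exact mul_lt_one_of_lt_of_le ha hb
    exact v.map_add_lt (key _ _ hx (le_of_lt hy)) (v.map_add_lt (key _ _ hx (h1 _)) (key _ _ hy (h1 _)))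
  · show v (x.1 + y.1 - RatFunc.C (x.2 + y.2)) < 1
    rw [map_add, add_sub_add_comm]
    exact v.map_add_lt hx hy
  · show v (-x.1 - RatFunc.C (-x.2)) < 1
    rw [map_neg, neg_sub_neg, v.map_sub_swap]
    exact hx
  · show v (RatFunc.C c - RatFunc.C c) < 1
    simp
  · by_contra c
    have : v (x.1 - RatFunc.C x.2) < 1 := hx
    rw [h, zero_sub, v.map_neg, RatFunc.inftyValuation.C K c] at this
    exact lt_irrefl _ this
  · show v (RatFunc.laurent a x.1 - RatFunc.C x.2) < 1
    rw [← RatFunc.laurent_C a, ← map_sub, h4]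
    exact hx
  · by_cases h : v f ≤ 1
    · exact Or.inl (h5 f h)
    · refine Or.inr ⟨fun c => h (by simp [c]), h5 f⁻¹ ?_⟩
      rw [map_inv₀]
      exact inv_le_one_of_one_le₀ (not_le.1 h).le

variable {D : Chev} {K : Type} [Field K]

/-- families of elements give elements over the ultrapower -/
theorem germ_mem {I : Type} (φ : Ultrafilter I) (y : I → D.grp K) :
    ∃ Y : D.grp (Germ (φ : Filter I) K), ∀ a b, Y.1.1 a b = Germ.ofFun fun t => (y t).1.1 a b := by
  let θ : (I → D.grp K) →* Matrix (Fin D.n) (Fin D.n) (Germ (φ : Filter I) K) :=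
    (Germ.coeRingHom (φ : Filter I)).mapMatrix.toMonoidHom.comp
      ((piRingEquiv (β := fun _ : I => K)).symm.toRingHom.toMonoidHom.comp ((D.nat K).compLeft I))
  let S : Subgroup (I → D.grp K) :=
    { carrier := {y | ∃ Y : D.grp (Germ (φ : Filter I) K), Y.1.1 = θ y}
      one_mem' := ⟨1, (map_one θ).symm⟩
      mul_mem' := fun {y z} ⟨Y, hY⟩ ⟨Z, hZ⟩ => ⟨Y * Z, by rw [map_mul, ← hY, ← hZ]; rfl⟩
      inv_mem' := fun {y} ⟨Y, hY⟩ => ⟨Y⁻¹, Units.inv_eq_of_mul_eq_one_right (by
        rw [hY, ← map_mul, mul_inv_cancel, map_one])⟩ }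
  have hR := R_ok D
  have hΓ : (GG D K).Ok := GG_ok
  have h1 : ∀ γ ∈ D.R.Φ, ∀ c : I → K, (fun t => (GG D K).x γ (c t)) ∈ S := fun γ hγ c =>
    ⟨(GG D _).x γ (Germ.ofFun c), Matrix.ext fun a b => by
      have e := congrFun (congrFun (xm_map (Germ.coeRingHom (φ : Filter I)) (D.EE γ) c) a) b
      refine (congrFun (congrFun (GG_mat.x_eq γ hγ _) a) b).trans (e.symm.trans
        (congrArg Germ.ofFun (funext fun t => ?_)))
      exact (congrFun (congrFun (xm_map (Pi.evalRingHom (fun _ => K) t) (D.EE γ) c) a) b).trans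
        (congrFun (congrFun (GG_mat.x_eq γ hγ _) a) b).symm⟩
  have h2 : ∀ (l : List D.R.Q), (∀ γ ∈ l, γ ∈ D.R.Φ) → ∀ c : I → D.R.Q → K,
      (fun t => (GG D K).P l (c t)) ∈ S := fun l hl c => by
    induction l with
    | nil => exact one_mem S
    | cons γ l ih =>
      simp only [P_cons]
      exact mul_mem (h1 γ (hl γ List.mem_cons_self) _)
        (ih fun δ hδ => hl δ (List.mem_cons_of_mem _ hδ))
  have h3 : ∀ i, (fun _ => (GG D K).n i) ∈ S := fun i =>
    mul_mem (mul_mem (h1 _ (hR.simple i) fun _ => 1) (h1 _ (hR.neg_mem (hR.simple i)) fun _ => -1))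
      (h1 _ (hR.simple i) fun _ => 1)
  have h4 : ∀ i (s : I → Kˣ), (fun t => (GG D K).h i (s t)) ∈ S := fun i s => by
    have := mul_mem (mul_mem (mul_mem (h1 _ (hR.simple i) fun t => s t)
      (h1 _ (hR.neg_mem (hR.simple i)) fun t => -((s t)⁻¹ : Kˣ))) (h1 _ (hR.simple i) fun t => s t))
      (inv_mem (h3 i))
    exact (congrArg (· ∈ S) (funext fun t => mul_inv_eq_iff_eq_mul.2 (hΓ.sl i (s t)))).mp this
  have h5 : ∀ s : I → Fin D.R.r → Kˣ, (fun t => hΓ.hT (s t)) ∈ S := fun s => by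
    have e : s = ∏ i : Fin D.R.r, fun t => (Pi.mulSingle i (s t i) : Fin D.R.r → Kˣ) :=
      _root_.funext fun t => by
        rw [Finset.prod_apply]
        exact (Finset.univ_prod_mulSingle _).symm
    show s ∈ S.comap (hΓ.hT.compLeft I)
    rw [e]
    exact prod_mem fun i _ => (congrArg (· ∈ S)
      (_root_.funext fun t => (hΓ.hT_single i (s t i)).symm)).mp (h4 i fun t => s t i)
  have h6 : ∀ l, (fun _ => (GG D K).nd l) ∈ S := fun l => by
    induction l with
    | nil => exact one_mem S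
    | cons i l ih =>
      simp only [nd_cons]
      exact mul_mem (h3 i) ih
  obtain ⟨l, l1, l2⟩ := RS.exists_list (S := D.R.Pos) le_rfl
  have h7 : ∀ u : I → D.grp K, (∀ t, u t ∈ (GG D K).U) → u ∈ S := fun u hu => by
    choose c hc using fun t => hΓ.exists_P hR RS.cl_Pos l1 l2 (U_eq (Γ := GG D K) ▸ hu t)
    rw [funext hc]
    exact h2 l (fun γ hγ => ((l2 γ).1 hγ).1) c
  choose u hu n w hn u' hu' e using fun t => hΓ.bruhat hR (y t)
  have := hR.finite_W
  obtain ⟨w₀, hw₀⟩ := Ultrafilter.eq_pure_of_finite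
    (φ.map fun t => (⟨w t, (hn t).mem_W⟩ : D.R.W))
  have h8 : ∀ᶠ t in (φ : Filter I), w t = w₀.1 := by
    have : ∀ᶠ x in ((φ.map fun t => (⟨w t, (hn t).mem_W⟩ : D.R.W) : Ultrafilter _) : Filter _),
      x = w₀ := by rw [hw₀]; exact eventually_pure.2 rfl
    exact (eventually_map.1 this).mono fun t => congrArg Subtype.val
  obtain ⟨m, -, hm⟩ := hR.exists_wd w₀.2
  classical
  choose s hs using fun t => hΓ.exists_hT (t := if w t = w₀.1 then n t * ((GG D K).nd m)⁻¹ else 1)
    (by
      split_ifs with c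
      · exact (hΓ.rep_div hR (hn t) (c ▸ hm ▸ rep_nd m)).1
      · exact one_mem _)
  obtain ⟨Y, hY⟩ := mul_mem (mul_mem (h7 u hu) (mul_mem (h5 s) (h6 m)))
    (h7 u' fun t => X_le_U (RS.cl_Inv _).1 (hu' t))
  refine ⟨Y, fun a b => (congrFun (congrFun hY a) b).trans (Germ.coe_eq.2 (h8.mono fun t ht => ?_))⟩
  show (u t * (hΓ.hT (s t) * (GG D K).nd m) * u' t).1.1 a b = (y t).1.1 a b
  rw [hs, if_pos ht, inv_mul_cancel_right, ← e]

/-- polynomial curves give points over the field of rational functions -/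
theorem curve_mem [Infinite K] (h : SC D) (y : K → D.grp K)
    (Y : Matrix (Fin D.n) (Fin D.n) K[X]) (hY : ∀ t, (y t).1.1 = Y.map (eval t)) :
    ∃ Z : D.grp (RatFunc K), Z.1.1 = Y.map (algebraMap _ _) := by
  let φ := hyperfilter K
  let f₀ : K[X] →+* Germ (φ : Filter K) K :=
    (Germ.coeRingHom (φ : Filter K)).comp (Pi.ringHom fun t => evalRingHom t)
  have h1 : Function.Injective f₀ := (injective_iff_map_eq_zero _).2 fun p hp =>
    p.eq_zero_of_infinite_isRoot fun c =>
      (notMem_hyperfilter_of_finite c) (Germ.coe_eq.1 hp)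
  let f : RatFunc K →+* Germ (φ : Filter K) K := IsFractionRing.lift h1
  obtain ⟨Z, hZ⟩ := germ_mem φ y
  have h2 : Z.1.1 = (Y.map (algebraMap _ (RatFunc K))).map f := by
    ext a b
    rw [hZ, map_apply, map_apply, IsFractionRing.lift_algebraMap]
    exact congrArg Germ.ofFun (funext fun t => congrFun (congrFun (hY t) a) b)
  obtain ⟨Z₀, e⟩ := h.desc f (g := Z) (h2 ▸ rat_map f _)
  exact ⟨Z₀, Matrix.map_injective f.injective ((fm_val f Z₀).symm.trans (e ▸ h2))⟩

end Vale.Agent.P011UB
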