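import Vale.Agent.P011UB.Iw
import Vale.Agent.P011UB.Val

/-!
The fixed point theorem for split unipotent groups.
-/

set_option autoImplicit false
set_option linter.all false

namespace Vale.Agent.P011UB

open Matrix Polynomial Vale.Agent.P183A Vale.Agent.P183CH Vale.Agent.P183CH.RG
  Vale.Agent.P183CH.Chev Vale.Agent.P011U

section
variable {F K : Type} [CommRing F] [CommRing K] {P : Subring (F × K)} {n : ℕ}
  {M N : Matrix (Fin n) (Fin n) F} {M' N' : Matrix (Fin n) (Fin n) K}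

/-- reduction of matrices -/
def Rd (P : Subring (F × K)) (M : Matrix (Fin n) (Fin n) F) (M' : Matrix (Fin n) (Fin n) K) :
    Prop := ∀ a b, (M a b, M' a b) ∈ P

theorem Rd.mul (h : Rd P M M') (h' : Rd P N N') : Rd P (M * N) (M' * N') := fun a b => by
  rw [show ((M * N) a b, (M' * N') a b) = ∑ c, (M a c, M' a c) * (N c b, N' c b) from
    Prod.ext (by simp [Prod.fst_sum, mul_apply]) (by simp [Prod.snd_sum, mul_apply])]
  exact sum_mem fun c _ => mul_mem (h a c) (h' c b)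

theorem rd_xm (E : ℕ → Matrix (Fin n) (Fin n) ℤ) {s : F} {t : K} (h : (s, t) ∈ P) :
    Rd P (xm E s) (xm E t) := fun a b => by
  rw [show (xm E s a b, xm E t a b) = ∑ m ∈ Finset.range n, (s, t) ^ m * (E m a b : F × K) from
    Prod.ext (by simp [Prod.fst_sum, xm, Matrix.sum_apply])
      (by simp [Prod.snd_sum, xm, Matrix.sum_apply])]
  exact sum_mem fun m _ => mul_mem (pow_mem h m) (intCast_mem _ _)

end

theorem ind_U {R : RS} {k : Type} [Field k] {G G' : Type} [Group G] [Group G'] {Γ : RG R k G}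
    (hΓ : Γ.Ok) (hR : R.Ok) (ψ : G →* G') (B : Subgroup G')
    (h : ∀ γ ∈ R.Pos, ∀ g, ∃ g', (∀ t, g'⁻¹ * ψ (Γ.x γ t) * g' ∈ B) ∧
      ∀ s, (∀ t, g⁻¹ * ((ψ (Γ.x γ t))⁻¹ * s * ψ (Γ.x γ t)) * g ∈ B) → g'⁻¹ * s * g' ∈ B) :
    ∃ g, ∀ u ∈ Γ.U, g⁻¹ * ψ u * g ∈ B := by
  have gen : ∀ (S : Set R.Q) g, (∀ γ ∈ S, γ ∈ R.Φ → ∀ t, g⁻¹ * ψ (Γ.x γ t) * g ∈ B) →
      ∀ u ∈ Γ.X S, g⁻¹ * ψ u * g ∈ B := fun S g h u hu =>
    X_le (K := B.comap ((MulAut.conj g).symm.toMonoidHom.comp ψ)) h hu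
  have key : ∀ (m : ℕ) (S : Set R.Q), S ⊆ R.Pos → S.ncard = m →
      (∀ γ ∈ S, ∀ δ ∈ R.Pos, R.ht γ < R.ht δ → δ ∈ S) →
      ∃ g, ∀ u ∈ Γ.X S, g⁻¹ * ψ u * g ∈ B := by
    intro m
    induction m with
    | zero =>
      intro S h1 h2 _
      obtain rfl := (Set.ncard_eq_zero (RS.Pos_finite.subset h1)).1 h2
      exact ⟨1, gen _ _ fun γ e => e.elim⟩
    | succ m ih =>
      intro S h1 h2 h3
      have hf := RS.Pos_finite.subset h1
      obtain ⟨γ, hγ, hm⟩ := Set.exists_min_image S R.ht hf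
        (Set.nonempty_of_ncard_ne_zero (by omega))
      have h4 : S \ {γ} ⊆ R.Pos := fun _ e => h1 e.1
      obtain ⟨g, hg⟩ := ih (S \ {γ}) h4 (by rw [Set.ncard_diff_singleton_of_mem hγ, h2]; rfl)
        fun δ hδ ε hε e => ⟨h3 δ hδ.1 ε hε e, fun c => (hm δ hδ.1).not_gt (c ▸ e)⟩
      have h5 := hΓ.nm_X hR (S := {γ}) (fun _ e => e ▸ h1 hγ) h4 (by
        intro γ' e0 δ hδ a b ha hb e
        obtain rfl : γ = γ' := e0.symm
        have e1 := hR.ht_pos (h1 hγ)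
        have e2 := hR.ht_pos (h4 hδ)
        have e3 := hm δ hδ.1
        have e4 : R.ht δ < R.ht (a • γ + b • δ) := by
          rw [RS.ht_add, RS.ht_nsmul, RS.ht_nsmul]
          have : (1 : ℤ) ≤ a := by exact_mod_cast ha
          have : (1 : ℤ) ≤ b := by exact_mod_cast hb
          nlinarith
        exact ⟨h3 δ hδ.1 _ ⟨e, RS.comb_nonneg (h1 hγ).2 (h4 hδ).2 a b⟩ e4,
          fun c => e3.not_gt (c ▸ e4)⟩)
      obtain ⟨g', e1, e2⟩ := h γ (h1 hγ) g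
      refine ⟨g', gen _ _ fun δ hδ hδ' t => ?_⟩
      by_cases c : δ = γ
      · exact c ▸ e1 t
      · refine e2 _ fun s => ?_
        have h6 : Γ.x γ s ∈ Γ.X {γ} := x_mem (h1 hγ).1 (Set.mem_singleton γ) s
        have h7 : Γ.x δ t ∈ Γ.X (S \ {γ}) := x_mem hδ' (Set.mem_diff_singleton.2 ⟨hδ, c⟩) t
        have h8 := hg _ (h5 _ (inv_mem h6) _ h7)
        rwa [inv_inv, map_mul, map_mul, map_inv] at h8
  rw [U_eq]
  exact key _ R.Pos le_rfl rfl fun _ _ _ e _ => e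

variable {D : Chev} {K : Type} [Field K]

/-- `y` is a polynomial curve. -/
def Cur (y : K → D.grp K) : Prop :=
  ∃ Y : Matrix (Fin D.n) (Fin D.n) K[X], ∀ t, (y t).1.1 = Y.map (eval t)

theorem Cur.mul {y z : K → D.grp K} (h : Cur y) (h' : Cur z) : Cur fun t => y t * z t := by
  obtain ⟨Y, hY⟩ := h
  obtain ⟨Z, hZ⟩ := h'
  exact ⟨Y * Z, fun t => ((congrArg₂ (· * ·) (hY t) (hZ t)).trans
    (Matrix.map_mul (f := evalRingHom t)).symm :)⟩

theorem cur_const (g : D.grp K) : Cur fun _ : K => g :=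
  ⟨g.1.1.map C, fun t => Matrix.ext fun a b => eval_C.symm⟩

theorem Cur.comp {y : K → D.grp K} (h : Cur y) (p : K[X]) : Cur fun t => y (p.eval t) := by
  obtain ⟨Y, hY⟩ := h
  exact ⟨Y.map (·.comp p), fun t => (hY _).trans (Matrix.ext fun a b => eval_comp.symm)⟩

theorem mat_ext [Infinite K] {n : ℕ} {M N : Matrix (Fin n) (Fin n) K[X]}
    (h : ∀ t, M.map (eval t) = N.map (eval t)) : M = N :=
  Matrix.ext fun a b => Polynomial.funext fun t => congrFun (congrFun (h t) a) b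

/-- `Z` is the generic point of the curve `y`. -/
def Gen (y : K → D.grp K) (Z : D.grp (RatFunc K)) : Prop :=
  ∃ Y : Matrix (Fin D.n) (Fin D.n) K[X], (∀ t, (y t).1.1 = Y.map (eval t)) ∧
    Z.1.1 = Y.map (algebraMap _ _)

theorem Gen.mul {y z : K → D.grp K} {Y Z : D.grp (RatFunc K)} (h : Gen y Y) (h' : Gen z Z) :
    Gen (fun t => y t * z t) (Y * Z) := by
  obtain ⟨A, h1, h2⟩ := h
  obtain ⟨B, h3, h4⟩ := h'
  exact ⟨A * B, fun t => ((congrArg₂ (· * ·) (h1 t) (h3 t)).trans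
    (Matrix.map_mul (f := evalRingHom t)).symm :), ((congrArg₂ (· * ·) h2 h4).trans
    (Matrix.map_mul (f := algebraMap K[X] (RatFunc K))).symm :)⟩

theorem gen_const (g : D.grp K) : Gen (fun _ : K => g) (fm D RatFunc.C g) :=
  ⟨g.1.1.map C, fun t => Matrix.ext fun a b => eval_C.symm, Matrix.ext fun a b => rfl⟩

theorem Gen.shift {y : K → D.grp K} {Y : D.grp (RatFunc K)} (h : Gen y Y) (s : K) :
    Gen (fun t => y (t + s)) (fm D (RatFunc.laurent s).toRingHom Y) := by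
  obtain ⟨A, h1, h2⟩ := h
  refine ⟨A.map (taylor s), fun t => (h1 _).trans (Matrix.ext fun a b => (taylor_eval _ _ _).symm),
    (fm_val _ _).trans ?_⟩
  rw [h2]
  exact Matrix.ext fun a b => RatFunc.laurent_algebraMap _ _

variable [Infinite K]

theorem Gen.unique {y : K → D.grp K} {Y Z : D.grp (RatFunc K)} (h : Gen y Y) (h' : Gen y Z) :
    Y = Z := by
  obtain ⟨A, h1, h2⟩ := h
  obtain ⟨B, h3, h4⟩ := h'
  obtain rfl : A = B := mat_ext fun t => (h1 t).symm.trans (h3 t)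
  exact Subtype.ext (Units.ext (h2.trans h4.symm))

theorem Gen.bo {y : K → D.grp K} {Y : D.grp (RatFunc K)} (h : Gen y Y)
    (hy : ∀ t, y t ∈ (GG D K).Bo) : Y ∈ (GG D _).Bo := by
  obtain ⟨A, h1, h2⟩ := h
  refine mem_of_up GG_mat GG_ok fun a b c => by_contra fun c' => c ?_
  have : A a b = 0 := Polynomial.funext fun t => by_contra fun e =>
    c' (up_of_mem GG_mat GG_ok (hy t) a b fun e' =>
      e ((congrFun (congrFun (h1 t) a) b).symm.trans (e'.trans eval_zero.symm)))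
  exact (congrFun (congrFun h2 a) b).trans (by rw [map_apply, this, map_zero])

theorem Cur.gen (hD : SC D) {y : K → D.grp K} (h : Cur y) : ∃ Y, Gen y Y := by
  obtain ⟨A, hA⟩ := h
  obtain ⟨Z, hZ⟩ := curve_mem hD y A hA
  exact ⟨Z, A, hA, hZ⟩

/-- the fixed point theorem, one step -/
theorem fixed (hD : SC D) {y : K → D.grp K} (hy : ∀ s t, y (s + t) = y s * y t) (hc : Cur y)
    (g : D.grp K) : ∃ g' : D.grp K, (∀ t, g'⁻¹ * y t * g' ∈ (GG D K).Bo) ∧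
      ∀ s, (∀ t, g⁻¹ * ((y t)⁻¹ * s * y t) * g ∈ (GG D K).Bo) → g'⁻¹ * s * g' ∈ (GG D K).Bo := by
  obtain ⟨P, p1, p2, p3, p4⟩ := place K
  obtain ⟨Y, hY⟩ := hc.gen hD
  have y0 : y 0 = 1 := by simpa using hy 0 0
  obtain ⟨Y', hY'⟩ := (hc.comp (-Polynomial.X)).gen hD
  have y1 : ∀ t, y (eval t (-Polynomial.X)) = (y t)⁻¹ := fun t =>
    eq_inv_of_mul_eq_one_left (by rw [← hy, eval_neg, eval_X, neg_add_cancel, y0])
  simp only [y1] at hY'
  obtain rfl : Y' = Y⁻¹ := eq_inv_of_mul_eq_one_left ((hY'.mul hY).unique (by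
    simpa using gen_const (1 : D.grp K)))
  have hconst : ∀ g : D.grp K, Rd P (fm D RatFunc.C g).1.1 g.1.1 := fun g a b => p1 _
  let L : Subgroup (D.grp (RatFunc K)) :=
    { carrier := {z | ∃ z' : D.grp K, Rd P z.1.1 z'.1.1 ∧ Rd P z⁻¹.1.1 z'⁻¹.1.1}
      one_mem' := ⟨1, by simpa using hconst 1, by simpa using hconst 1⟩
      mul_mem' := fun ⟨a, h1, h2⟩ ⟨b, h3, h4⟩ => ⟨a * b, h1.mul h3, by
        rw [_root_.mul_inv_rev, _root_.mul_inv_rev]; exact h4.mul h2⟩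
      inv_mem' := fun ⟨a, h1, h2⟩ => ⟨a⁻¹, h2, by rw [inv_inv, inv_inv]; exact h1⟩ }
  have hx : ∀ γ ∈ D.R.Φ, ∀ s t, (s, t) ∈ P →
      Rd P ((GG D _).x γ s).1.1 ((GG D K).x γ t).1.1 := fun γ hγ s t h => by
    have := rd_xm (D.EE γ) h
    rwa [← GG_mat.x_eq γ hγ, ← GG_mat.x_eq γ hγ] at this
  obtain ⟨b, hb, z, ⟨z', z1, z2⟩, e⟩ := iwa GG_ok (R_ok D) (O := {f | ∃ c, (f, c) ∈ P})
    ⟨1, one_mem P⟩ ⟨-1, neg_mem (one_mem P)⟩ p4 (L := L) (fun γ hγ s ⟨t, h⟩ =>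
      ⟨_, hx γ hγ s t h, by
        rw [← GG_ok.x_neg hγ, ← GG_ok.x_neg hγ]
        exact hx γ hγ _ _ (neg_mem h)⟩) (Y * fm D RatFunc.C g)⁻¹
  have key : ∀ (z₁ : D.grp (RatFunc K)) (s : D.grp K), Rd P z₁.1.1 z'.1.1 →
      z₁ * fm D RatFunc.C s * z⁻¹ ∈ (GG D _).Bo → z'⁻¹⁻¹ * s * z'⁻¹ ∈ (GG D K).Bo :=
    fun z₁ s h1 h2 => mem_of_up GG_mat GG_ok fun a c e => up_of_mem GG_mat GG_ok h2 a c fun e' =>
      e (by rw [inv_inv]; exact p2 _ (((h1.mul (hconst s)).mul z2) a c) e')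
  have e1 : z = b⁻¹ * (Y * fm D RatFunc.C g)⁻¹ := by rw [e]; group
  refine ⟨z'⁻¹, fun t => key (fm D (RatFunc.laurent t).toRingHom z) _
    (fun a c => p3 t _ (z1 a c)) ?_, fun s hs => key z s z1 ?_⟩
  · have h1 : fm D (RatFunc.laurent t).toRingHom Y = fm D RatFunc.C (y t) * Y :=
      (hY.shift t).unique (by
        simp only [add_comm _ t, hy]
        exact (gen_const _).mul hY)
    have h2 : fm D (RatFunc.laurent t).toRingHom (fm D RatFunc.C g) = fm D RatFunc.C g :=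
      ((gen_const g).shift t).unique (gen_const g)
    have h3 : fm D (RatFunc.laurent t).toRingHom b⁻¹ ∈ (GG D _).Bo :=
      mem_of_up GG_mat GG_ok fun a c e => up_of_mem GG_mat GG_ok (inv_mem hb) a c fun e' =>
        e ((congrArg (RatFunc.laurent t).toRingHom e').trans (map_zero _))
    refine mem_eq (mul_mem h3 hb) ?_
    rw [e1, map_mul, map_inv _ (Y * _), map_mul, h1, h2]
    group
  · have h1 := (((gen_const g⁻¹).mul ((hY'.mul (gen_const s)).mul hY)).mul (gen_const g)).bo hs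
    refine mem_eq (mul_mem (mul_mem (inv_mem hb) h1) hb) ?_
    rw [e1, map_inv]
    group

/-- the image of `U` lies in a conjugate of `U` -/
theorem map_U (hD : SC D) (ψ : D.grp K →* D.grp K)
    (h : ∀ γ ∈ D.R.Pos, Cur fun t => ψ ((GG D K).x γ t)) :
    ∃ g, ∀ u ∈ (GG D K).U, g⁻¹ * ψ u * g ∈ (GG D K).U := by
  have hR := R_ok D
  have hΓ : (GG D K).Ok := GG_ok
  obtain ⟨g, hg⟩ := ind_U hΓ hR ψ (GG D K).Bo fun γ hγ => fixed hD
    (y := fun t => ψ ((GG D K).x γ t)) (fun s t => by rw [hΓ.add γ hγ.1, map_mul]) (h γ hγ)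
  refine ⟨g, fun u hu => X_le (K := (GG D K).U.comap ((MulAut.conj g).symm.toMonoidHom.comp ψ))
    (fun γ h1 h2 t => ?_) hu⟩
  have h3 : ∀ t, g⁻¹ * ψ ((GG D K).x γ t) * g ∈ (GG D K).Bo := fun t => hg _ (x_mem h2 h1 t)
  refine mem_U_of_diag GG_mat hΓ (h3 t) fun a => ?_
  obtain ⟨Y, hY⟩ := ((cur_const g⁻¹).mul (h γ ⟨h2, h1⟩)).mul (cur_const g)
  have h4 : ∀ t, D.nat K (g⁻¹ * ψ ((GG D K).x γ t) * g) a a = (Y a a).eval t :=
    fun t => congrFun (congrFun (hY t) a) a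
  have h5 : Y a a * (Y a a).comp (-Polynomial.X) = 1 := Polynomial.funext fun t => by
    rw [eval_mul, eval_comp, eval_neg, eval_X, ← h4, ← h4, ← diag_mul GG_mat hΓ (h3 _) (h3 _),
      hΓ.x_neg h2, map_inv, eval_one, show ∀ z : D.grp K, g⁻¹ * z * g * (g⁻¹ * z⁻¹ * g) = 1 from
        fun z => by group, map_one, one_apply_eq]
  obtain ⟨c, -, hc⟩ := Polynomial.isUnit_iff.1 (IsUnit.of_mul_eq_one _ h5)
  have h6 := h4 0
  rw [hΓ.x_zero h2, map_one, mul_one, inv_mul_cancel, map_one, one_apply_eq, ← hc, eval_C] at h6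
  exact (h4 t).trans (by rw [← hc, eval_C, h6])

end Vale.Agent.P011UB
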